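import Mathlib

set_option autoImplicit false

/-!
# P181, TRI: flat shapes up to `3 b - C log² a`. Definitions and the rows.

`N` slots, every slot is made of `q` blocks of two pieces of `e` positions (`c = 2 e`,
`b = 2 q e`).
-/

namespace Vale.Agent.P181.TRI

open Finset Function

/-- The pieces of one slot. -/
abbrev Pc (q : ℕ) := Fin q × Fin 2

/-- The positions: slot, piece, place. -/
abbrev Pos (N q e : ℕ) := Fin N × Pc q × Fin e

/-- A permutation of `A × X` which keeps the slots together. -/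
def SlotP {A X : Type} (h : Equiv.Perm (A × X)) : Prop :=
  ∀ i x x', (h (i, x)).1 = (h (i, x')).1

/-- The lift of a permutation to finer positions. -/
def lift {A X Y : Type} (τ : Equiv.Perm (A × X)) : Equiv.Perm (A × X × Y) :=
  (Equiv.prodAssoc A X Y).symm.trans
    ((τ.prodCongr (Equiv.refl Y)).trans (Equiv.prodAssoc A X Y))

theorem lift_apply {A X Y : Type} (τ : Equiv.Perm (A × X)) (a : A) (x : X) (y : Y) :
    lift τ (a, x, y) = ((τ (a, x)).1, (τ (a, x)).2, y) := rfl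

theorem lift_mul {A X Y : Type} (σ τ : Equiv.Perm (A × X)) :
    (lift (σ * τ) : Equiv.Perm (A × X × Y)) = lift σ * lift τ := by
  ext p : 1
  obtain ⟨a, x, y⟩ := p
  rfl

/-- The hypotheses on `Y`. -/
structure Sys (N q e M : ℕ) (κ : Pos N q e → Fin M) (Y : Equiv.Perm (Pos N q e) → ℂ) : Prop where
  slot : ∀ (β h : Equiv.Perm (Pos N q e)), SlotP h → Y (β * h) = Y β
  rel : ∀ β : Equiv.Perm (Pos N q e),
    ∑ ρ : Equiv.Perm (Fin N × Fin q), Y (β * lift (lift ρ)) = 0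
  alt : ∀ (β : Equiv.Perm (Pos N q e)) (i : Fin N) (x x' : Pc q × Fin e), x ≠ x' →
    κ (β (i, x)) = κ (β (i, x')) → Y β = 0

/-- The number of common colours of two slots. -/
def com {N q e M : ℕ} (P : Fin N → Pc q × Fin e → Fin M) (i k : Fin N) : ℕ :=
  (univ.image (P i) ∩ univ.image (P k)).card

/-- The number of common colours of two pieces. -/
def comP {N q e M : ℕ} (P : Fin N → Pc q × Fin e → Fin M) (i k : Fin N) (t u : Pc q) : ℕ :=
  ((univ.image fun s : Fin e => P i (t, s)) ∩ (univ.image fun s : Fin e => P k (u, s))).card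

/-- The cut is good. -/
def Cut {N q e M : ℕ} (L1 L2 : ℕ) (P : Fin N → Pc q × Fin e → Fin M) : Prop :=
  ∀ i k, i ≠ k → (L1 ≤ com P i k → ∀ t u : Pc q, 1 ≤ comP P i k t u) ∧
    (L2 ≤ com P i k → ∀ t u : Pc q, L1 ≤ comP P i k t u)

/-- **[T1]** the cutting lemma (random cut; `count`, `greedy` of SPLIT/H527 with `2 q` for `q`,
`L1 = 4 q L` groups of `L` colours in different columns). -/
def CutStmt : Prop :=
  ∀ {N q e M L : ℕ}, 1 ≤ q →
    N ^ 2 * (2 * q) ^ 2 * (4 * q * L + 1) * ((2 * q) ^ 2 - 1) ^ L < ((2 * q) ^ 2) ^ L →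
    ∀ P : Fin N → Pc q × Fin e → Fin M, (∀ i, Injective (P i)) →
      ∃ h : Fin N → Equiv.Perm (Pc q × Fin e),
        Cut (4 * q * L) (16 * q ^ 2 * L ^ 2) (fun i x => P i (h i x))

/-- **[T2]** two slots: the relation on `4 q` points is injective. -/
def EdgeStmt : Prop :=
  ∀ {q : ℕ}, 1 ≤ q → ∀ f : Equiv.Perm (Fin 2 × Pc q) → ℂ,
    (∀ τ h, SlotP h → f (τ * h) = f τ) →
    (∀ τ, ∑ ρ : Equiv.Perm (Fin 2 × Fin q), f (τ * (lift ρ : Equiv.Perm (Fin 2 × Pc q))) = 0) →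
    ∀ τ, f τ = 0

/-- **[T3]** tensor powers of an injective relation. -/
def TensorStmt : Prop :=
  ∀ {E G G' : Type} [Fintype E] [DecidableEq E] [Group G] [Fintype G'] [Nonempty G']
    (H : Set G) (φ : G' → G),
    (∀ f : G → ℂ, (∀ τ, ∀ h ∈ H, f (τ * h) = f τ) → (∀ τ, ∑ w, f (τ * φ w) = 0) → ∀ τ, f τ = 0) →
    ∀ F : (E → G) → ℂ, (∀ (τ : E → G) (e : E), ∀ h ∈ H, F (update τ e (τ e * h)) = F τ) →
      (∀ τ : E → G, ∑ w : E → G', F (fun e => τ e * φ (w e)) = 0) → ∀ τ, F τ = 0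

/-- The permutations inside pairs of slots `ψ (e, 0)`, `ψ (e, 1)`. -/
noncomputable def ext {N : ℕ} {E X : Type} [Fintype E] [DecidableEq E] [Fintype X]
    [DecidableEq X] (ψ : E × Fin 2 ↪ Fin N) (g : E → Equiv.Perm (Fin 2 × X)) :
    Equiv.Perm (Fin N × X) :=
  Equiv.Perm.viaFintypeEmbedding (Equiv.prodCongrRight g : Equiv.Perm (E × Fin 2 × X))
    ⟨fun p => (ψ (p.1, p.2.1), p.2.2), by
      rintro ⟨e, x, t⟩ ⟨e', x', t'⟩ h
      simp only [Prod.mk.injEq, EmbeddingLike.apply_eq_iff_eq] at h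
      obtain ⟨⟨rfl, rfl⟩, rfl⟩ := h
      rfl⟩

/-- **[T4a]** the API of `ext`. -/
def ExtStmt : Prop :=
  ∀ {N : ℕ} {E X : Type} [Fintype E] [DecidableEq E] [Fintype X] [DecidableEq X]
    (ψ : E × Fin 2 ↪ Fin N),
    (∀ (g : E → Equiv.Perm (Fin 2 × X)) (e : E) (y : Fin 2) (x : X), ext ψ g (ψ (e, y), x) =
      (ψ (e, (g e (y, x)).1), (g e (y, x)).2)) ∧
    (∀ (g : E → Equiv.Perm (Fin 2 × X)) (i : Fin N) (x : X), i ∉ Set.range ψ →
      ext ψ g (i, x) = (i, x)) ∧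
    (∀ g g' : E → Equiv.Perm (Fin 2 × X), ext ψ (g * g') = ext ψ g * ext ψ g') ∧
    ext ψ (1 : E → Equiv.Perm (Fin 2 × X)) = 1

/-- **[T4b]** a permutation whose slots stay inside the pairs is a permutation inside the pairs
times one which keeps the slots. -/
def DecompStmt : Prop :=
  ∀ {N : ℕ} {E X : Type} [Fintype E] [DecidableEq E] [Fintype X] [DecidableEq X] [Nonempty X]
    (ψ : E × Fin 2 ↪ Fin N) (ρ : Equiv.Perm (Fin N × X)),
    (∀ j x x', (ρ (j, x)).1 = (ρ (j, x')).1 ∨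
      ∃ e y y', (ρ (j, x)).1 = ψ (e, y) ∧ (ρ (j, x')).1 = ψ (e, y')) →
    ∃ w : E → Equiv.Perm (Fin 2 × X), SlotP ((ext ψ w)⁻¹ * ρ)

/-- The number of (ordered) unmixed pairs. -/
def unm {N q e M : ℕ} (L1 : ℕ) (P : Fin N → Pc q × Fin e → Fin M) : ℕ :=
  (univ.filter fun x : Fin N × Fin N => x.1 ≠ x.2 ∧ com P x.1 x.2 < L1).card

/-- An isolated edge of the graph of unmixed pairs. -/
def Iso {N q e M : ℕ} (L1 : ℕ) (P : Fin N → Pc q × Fin e → Fin M) (i k : Fin N) : Prop :=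
  i ≠ k ∧ com P i k < L1 ∧ ∀ j, j ≠ i → j ≠ k → L1 ≤ com P i j ∧ L1 ≤ com P k j

/-- **[T5]** regrouping the pieces outside the isolated edges makes the number of unmixed pairs
smaller. -/
def DropStmt : Prop :=
  ∀ {N q e M L1 L2 : ℕ}, 1 ≤ q → 1 ≤ L1 → M + 2 * L2 + L1 ≤ 3 * (2 * q * e) → L1 ≤ L2 →
    ∀ P : Fin N → Pc q × Fin e → Fin M, (∀ i, Injective (P i)) → Cut L1 L2 P →
    ∀ τ : Equiv.Perm (Fin N × Pc q),
      (∀ j, Injective fun x : Pc q × Fin e => P (τ (j, x.1)).1 ((τ (j, x.1)).2, x.2)) →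
      unm L1 P ≤ unm L1 (fun j (x : Pc q × Fin e) => P (τ (j, x.1)).1 ((τ (j, x.1)).2, x.2)) →
      ∀ j t t', (τ (j, t)).1 ≠ (τ (j, t')).1 → Iso L1 P (τ (j, t)).1 (τ (j, t')).1

/-- **[T6]** the core. -/
def CoreStmt : Prop :=
  ∀ {N q e M L : ℕ}, 1 ≤ q → 1 ≤ L →
    N ^ 2 * (2 * q) ^ 2 * (4 * q * L + 1) * ((2 * q) ^ 2 - 1) ^ L < ((2 * q) ^ 2) ^ L →
    M + 2 * (16 * q ^ 2 * L ^ 2) + 4 * q * L ≤ 3 * (2 * q * e) →
    ∀ (κ : Pos N q e → Fin M) (Y : Equiv.Perm (Pos N q e) → ℂ), Sys N q e M κ Y → ∀ β, Y β = 0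

end Vale.Agent.P181.TRI
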